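import Vale.Agent.P029.H461.Main

/-!
# P029: the Deligne-Drinfeld conjecture for every choice of the generators
-/

namespace Vale.Agent.Results.P029.EveryChoice

open Vale.Agent.P029.Stmt Vale.Agent.P029.H461

/-- **The Deligne-Drinfeld conjecture for every choice of the generators.** (1) The conjecture.
(2) For every `k` some element of `W` of weight `2 k + 3` has a nonzero coefficient of
`x^(2 k + 2) y`. (3) Every family `σ : ℕ → L` induces exactly one homomorphism
`F → (L, {,})` with `e k ↦ σ k`. (4) This homomorphism is an isomorphism of graded Lie algebras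
from `F` onto `W` if and only if each `σ k` is an element of `W` of weight `2 k + 3` with a nonzero
coefficient of `x^(2 k + 2) y`. (5) An element of `W` of weight `n` lies in `{W, W}` if and only
if its coefficient of `x^(n - 1) y` is zero. -/
theorem result :
    (∃ f : F → L, (∀ k, IsWn (2 * k + 3) (f (FreeLieAlgebra.of ℚ k))) ∧ IsIso f) ∧
    (∀ k, ∃ s, IsWn (2 * k + 3) s ∧ coefXY (2 * k + 2) s ≠ 0) ∧
    (∀ σ : ℕ → L, ∃! f : F → L, IsInduced σ f) ∧
    (∀ (σ : ℕ → L) (f : F → L), IsInduced σ f →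
      (IsIso f ↔ ∀ k, IsWn (2 * k + 3) (σ k) ∧ coefXY (2 * k + 2) (σ k) ≠ 0)) ∧
    (∀ (n : ℕ) (ψ : L), IsWn n ψ → (ψ ∈ WW ↔ coefXY (n - 1) ψ = 0)) := by
  refine ⟨Vale.Agent.P029.Bridge.deligneDrinfeld, fun k => ?_, exists_induced,
    fun σ f h => iso_iff h, fun n ψ h => ?_⟩
  · obtain ⟨s, hs, hc⟩ := Vale.Agent.P029.Low.sigma_exists k
    exact ⟨s, (Vale.Agent.P029.Bridge.isWn_iff _ _).2 hs, hc⟩
  · exact mem_WW_iff ((Vale.Agent.P029.Bridge.isWn_iff _ _).1 h)

end Vale.Agent.Results.P029.EveryChoice
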