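import Vale.Agent.P029.H819.Z691

/-!
# P029: the fields over which the Deligne-Drinfeld conjecture holds, and its failure over `ℤ`
-/

namespace Vale.Agent.Results.P029.FieldsExactly

open Vale.Agent.P029.H819

/-- **The Deligne-Drinfeld conjecture: exactly which fields.** (1) The conjecture. (2) Over a field
`K` there is an isomorphism of graded Lie algebras from the free Lie algebra onto `W(K)` if and only
if `K` has characteristic zero or two. (3) The same for the equality of the dimensions in all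
weights. (4) For every odd prime `p` there is a weight `n ≤ p - 1` in which the dimension is too
large, for every field of characteristic `p`. (5) Over a commutative ring of positive
characteristic `m` there is an isomorphism if and only if `m` is a power of two. (6) Over any
commutative ring: there is an isomorphism if the odd integers are invertible, and if there is one
then the odd integers are no zero divisors. (7) If there is an isomorphism over a commutative ring,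
then `691` is invertible in it. (8) There is no isomorphism over `ℤ`. (9) The reason for (7): the
generators `a`, `b`, `c`, `d` of the infinite cyclic groups `W_3(ℤ)`, `W_5(ℤ)`, `W_7(ℤ)`, `W_9(ℤ)`
satisfy `2 {a, d} - 27 {b, c} = 691 w` with `w` in `W_12(ℤ)`. -/
theorem result :
    (∃ f : Vale.Agent.P029.Stmt.F → Vale.Agent.P029.Stmt.L,
      (∀ k, Vale.Agent.P029.Stmt.IsWn (2 * k + 3) (f (FreeLieAlgebra.of ℚ k))) ∧
        Vale.Agent.P029.Stmt.IsIso f) ∧
    (∀ (K : Type) [Field K], (∃ f : F K → L K, IsIso K f) ↔ CharP K 0 ∨ CharP K 2) ∧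
    (∀ (K : Type) [Field K], (∀ n, Module.finrank K (Submodule.span K {ψ | IsWn K n ψ}) =
      Module.finrank ℚ (Vale.Agent.P029.Stmt.Fpart n)) ↔ CharP K 0 ∨ CharP K 2) ∧
    (∀ p : ℕ, p.Prime → p ≠ 2 → ∃ n, 2 ≤ n ∧ n ≤ p - 1 ∧ ∀ (K : Type) [Field K] [CharP K p],
      Module.finrank ℚ (Vale.Agent.P029.Stmt.Fpart n) <
        Module.finrank K (Submodule.span K {ψ | IsWn K n ψ})) ∧
    (∀ (R : Type) [CommRing R] (m : ℕ) [CharP R m], 0 < m →
      ((∃ f : F R → L R, IsIso R f) ↔ ∃ k, m = 2 ^ k)) ∧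
    (∀ (R : Type) [CommRing R],
      ((∀ m : ℤ, Odd m → IsUnit (m : R)) → ∃ f : F R → L R, IsIso R f) ∧
      ((∃ f : F R → L R, IsIso R f) → ∀ m : ℤ, Odd m → ∀ r : R, (m : R) * r = 0 → r = 0)) ∧
    (∀ (R : Type) [CommRing R], (∃ f : F R → L R, IsIso R f) → IsUnit (691 : R)) ∧
    (¬ ∃ f : F ℤ → L ℤ, IsIso ℤ f) ∧
    (∃ a b c d : L ℤ, a ≠ 0 ∧ b ≠ 0 ∧ c ≠ 0 ∧ d ≠ 0 ∧
      (∀ ψ, IsWn ℤ 3 ψ ↔ ∃ m : ℤ, ψ = m • a) ∧ (∀ ψ, IsWn ℤ 5 ψ ↔ ∃ m : ℤ, ψ = m • b) ∧
      (∀ ψ, IsWn ℤ 7 ψ ↔ ∃ m : ℤ, ψ = m • c) ∧ (∀ ψ, IsWn ℤ 9 ψ ↔ ∃ m : ℤ, ψ = m • d) ∧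
      ∃ u v w : L ℤ, IsBr ℤ a d u ∧ IsBr ℤ b c v ∧ IsWn ℤ 12 w ∧
        (2 : ℤ) • u - (27 : ℤ) • v = (691 : ℤ) • w) := by
  refine ⟨Vale.Agent.P029.Bridge.deligneDrinfeld, fun K _ => Vale.Agent.P029.Odd.iso_iff_field K,
    fun K _ => Vale.Agent.P029.Odd.finrank_iff_field K, ?_, fun R _ m _ hm => Vale.Agent.P029.Odd.iso_iff_char R m hm,
    fun R _ => ⟨Vale.Agent.P029.Odd.iso_of_unit R,
      fun h _ hm _ hr => Vale.Agent.P029.Odd.odd_regular h hm hr⟩,
    fun R _ h => Vale.Agent.P029.Odd.isUnit_691 h, Vale.Agent.P029.Odd.not_iso_int,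
    Vale.Agent.P029.Odd.relation⟩
  intro p hp hp2
  have : Fact p.Prime := ⟨hp⟩
  obtain ⟨n, hn, hnp, h⟩ := Vale.Agent.P029.Odd.exists_weight hp2
  refine ⟨n, hn, hnp, fun K _ _ => ?_⟩
  rw [Vale.Agent.P029.Odd.finrank_char (p := p) K hn]
  exact h

end Vale.Agent.Results.P029.FieldsExactly
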