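import Vale.Agent.P029.H819.Fin

/-!
# P029: the Deligne-Drinfeld conjecture over rings in which the odd integers are invertible
-/

namespace Vale.Agent.Results.P029.TwoLocal

open Vale.Agent.P029.H819

/-- **The Deligne-Drinfeld conjecture over rings.** (1) The conjecture. (2) There are integral
solutions `σ k ∈ W(ℤ)` of weight `2 k + 3` such that for every commutative ring `R` in which the
odd integers are invertible `e k ↦ σ k` extends to exactly one isomorphism of graded Lie algebras
from the free Lie algebra over `R` onto `W(R)` with the Ihara bracket; in weight at least three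
the hexagon equation over `R` follows from antisymmetry and the pentagon, and the solutions over
`R` are the linear combinations of the integral solutions. (3) The dimensions of the weight parts
of `W(K)` for a field `K` of characteristic zero or two. (4) The solutions of weight two over
every commutative ring. (5) There is no isomorphism over a ring with `3`-torsion. -/
theorem result :
    (∃ f : Vale.Agent.P029.Stmt.F → Vale.Agent.P029.Stmt.L,
      (∀ k, Vale.Agent.P029.Stmt.IsWn (2 * k + 3) (f (FreeLieAlgebra.of ℚ k))) ∧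
        Vale.Agent.P029.Stmt.IsIso f) ∧
    (∃ σ : ℕ → L ℤ, (∀ k, IsWn ℤ (2 * k + 3) (σ k)) ∧
      ∀ (R : Type) [CommRing R], (∀ m : ℤ, Odd m → IsUnit (m : R)) →
        (∃! f : F R → L R, (∀ k, f (FreeLieAlgebra.of R k) = toR R (σ k)) ∧ IsIso R f) ∧
        (∀ n, 3 ≤ n → ∀ ψ ∈ wtPart R (fun _ => 1) n, Anti R ψ → Penta R ψ → Hexa R ψ) ∧
        (∀ n ψ, IsWn R n ψ → ψ ∈ Submodule.span R (toR R '' {z | IsWn ℤ n z}))) ∧
    (∀ (K : Type) [Field K], CharP K 0 ∨ CharP K 2 → ∀ n,
      Module.finrank K (Submodule.span K {ψ | IsWn K n ψ}) =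
        Module.finrank ℚ (Vale.Agent.P029.Stmt.Fpart n)) ∧
    (∀ (R : Type) [CommRing R] (ψ : L R),
      IsWn R 2 ψ ↔ ∃ a : R, 3 * a = 0 ∧ ψ = a • ⁅x R, y R⁆) ∧
    (∀ (R : Type) [CommRing R], (∃ a : R, a ≠ 0 ∧ 3 * a = 0) →
      ¬ ∃ f : F R → L R, IsIso R f) := by
  refine ⟨Vale.Agent.P029.Bridge.deligneDrinfeld, Vale.Agent.P029.Low.Z819.twoLocal,
    fun K _ h n => Vale.Agent.P029.Low.Z819.finrank_field K h n,
    fun R _ ψ => Vale.Agent.P029.H140.wn_two_iff ψ, ?_⟩
  rintro R _ ⟨a, ha, h3⟩
  refine Vale.Agent.P029.Low.Z819.not_iso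
    ((Vale.Agent.P029.H140.wn_two_iff _).2 ⟨a, h3, rfl⟩) fun h => ha ?_
  exact Vale.Agent.P029.H140.smul_lie_eq_zero h

end Vale.Agent.Results.P029.TwoLocal
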